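import Vale.Agent.P088.R2.H455.E.Top
import Vale.Agent.P088.R2.H558.G.PayC

/-!
# P088, stage 3, EST': row Z from the rows of the zones, the payments where both cut-offs are
not zero
-/

open Set Filter MeasureTheory
open scoped ContDiff Topology Matrix

noncomputable section

namespace Vale.Agent.P088.R2.H558.G

open Vale.Agent.P088.LR Vale.Agent.P088.HY
open Vale.Agent.P088.R2.H31.EP
open Vale.Agent.P088.R2.H551.E
open Vale.Agent.P088.R2.H961.GW
open Vale.Agent.P088.R2.H455.E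
open Vale.Agent.P088.R2.H867.EP (Zo zos mem_zos)
open Vale.Agent.P088.R2.H850.E (lw Nn mw ws ws_ge ws_cont mw_ct mw_dens)

variable {n : ℕ}

/-- **The payment of the pair `k`, `j`**, only where both cut-offs are not zero. -/
def RowPayW (M co : Fam n) (k j : Zo) : Prop := EvC fun q => ∀ d : Pk n, PkOk q d →
  ∀ z, d.ch q k z ≠ 0 → d.ch q j z ≠ 0 → ∀ a b : VV n → ℝ,
    34 * den d q (co q d k) a b z ≤ den d q (M q d j) a b z

/-- **The costs vanish off the closed support of the cut-off.** -/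
def RowOff (co : Fam n) (k : Zo) : Prop := EvC fun q => ∀ d : Pk n, PkOk q d →
  ∀ z, z ∉ tsupport (d.ch q k) → Zr (co q d k) z

theorem RowPayW.of {M co : Fam n} {k j : Zo} (h : RowPay M co k j) : RowPayW M co k j :=
  h.mono fun _ h d ok z _ hj a b => h d ok z hj a b

/-- A pair without common points. -/
theorem RowPayW.dead {M co : Fam n} {k j : Zo}
    (h : EvC fun q => ∀ d : Pk n, PkOk q d → ∀ z, d.ch q k z ≠ 0 → d.ch q j z ≠ 0 → False) :
    RowPayW M co k j :=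
  h.mono fun _ h d ok z hk hj _ _ => (h d ok z hk hj).elim

/-- **The payment of the pair `k`, `j`** on the dense open set of the points which are in no
boundary of a support. -/
def RowPayG (M co : Fam n) (k j : Zo) : Prop := EvC fun q => ∀ d : Pk n, PkOk q d →
  ∀ z ∈ Gd zos (d.ch q), d.ch q j z ≠ 0 → ∀ a b : VV n → ℝ,
    34 * den d q (co q d k) a b z ≤ den d q (M q d j) a b z

/-- Costs which do not vanish off the support of the cut-off (`T1`, `T2`): the payment at all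
points. -/
theorem RowPayG.of {M co : Fam n} {k j : Zo} (h : RowPay M co k j) : RowPayG M co k j :=
  h.mono fun _ h d ok z _ hj a b => h d ok z hj a b

/-- Costs which vanish off the support of the cut-off: the payment where both cut-offs are not
zero. -/
theorem RowPayG.ofW {M co : Fam n} {κ₀ ζ₀ : Cst → ℝ} {k j : Zo} (hN : RowNn M κ₀ ζ₀)
    (hO : RowOff co k) (h : RowPayW M co k j) : RowPayG M co k j := by
  refine EvC.mono (EvC.and hN (EvC.and hO h)) ?_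
  rintro q ⟨⟨-, -, nn⟩, off, h⟩ d ok z hz hj a b
  rcases hz k (mem_zos k) with hk | hk
  · exact h d ok z hk hj a b
  · unfold den fden
    rw [(off d ok z hk).dens, mul_zero]
    exact Vale.Agent.P088.R2.H850.E.dens_nonneg (nn d ok j z hj).1

/-- All the properties at one `q`. -/
structure TopOkW (M co : Fam n) (κ₀ ζ₀ g : Cst → ℝ) (q : Cst) : Prop where
  bas : ∀ d : Pk n, PkOk q d → Bas q d
  ct : ∀ d : Pk n, PkOk q d → ∀ k,
    ((M q d k).sm fun z => d.ch q k z ^ 2).Ct univ ∧ (co q d k).Ct univ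
  zo : ∀ k, ∀ d : Pk n, PkOk q d → d.Zone q (d.ch q k)
    ((M q d k).sm fun z => d.ch q k z ^ 2) (co q d k)
  κ0 : 0 < κ₀ q
  nn : ∀ d : Pk n, PkOk q d → ∀ k z, d.ch q k z ≠ 0 → Nn (M q d k) z ∧
    4 * κ₀ q ≤ (M q d k).κ z ∧ 4 * (ζ₀ q / q.R) ≤ (M q d k).ζ₁ z ∧
    4 * (ζ₀ q / q.R) ≤ (M q d k).ζ₂ z
  pay : ∀ k j, ∀ d : Pk n, PkOk q d → ∀ z ∈ Gd zos (d.ch q), d.ch q j z ≠ 0 →
    ∀ a b : VV n → ℝ, 34 * den d q (co q d k) a b z ≤ den d q (M q d j) a b z
  g0 : 0 < g q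
  gn : ∀ d : Pk n, PkOk q d → ∀ k z, d.ch q k z ≠ 0 →
    8 * (G0 q.R + gy0 q d (κ₀ q) (g q) z) ≤ lw (M q d k) z ∧
    8 * (G0 q.R + gx0 q d (κ₀ q) (g q) z) ≤ lw (M q d k) z
  g1 : g q * (q.R ^ 2)⁻¹ ≤ ζ₀ q / q.R
  R1 : 1 ≤ q.R

/-- The estimate for one package. -/
theorem TopOkW.est {M co : Fam n} {κ₀ ζ₀ g : Cst → ℝ} {q : Cst} (h : TopOkW M co κ₀ ζ₀ g q)
    {d : Pk n} (ok : PkOk q d) :
    EstF d.s₁ d.s₂ (d.W q) (wzF M q d) (g q * (q.R ^ 2)⁻¹) (G0 q.R) (cR n q.R) := by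
  have B := h.bas d ok
  have C := h.ct d ok
  have hR := h.R1
  have hR0 : 0 < q.R := by linarith
  have h1 : ∀ z, ∑ k ∈ zos, d.ch q k z ^ 2 = 1 := d.ch_sum q
  have cws : Continuous (ws zos (d.ch q) (M q d)) :=
    continuousOn_univ.1 (ws_cont fun k _ => (C k).1)
  have hc2 : ContDiff ℝ ∞ (cR n q.R) := c2_smooth.comp (contDiff_const_smul _)
  have hc0 : ∀ x, 0 ≤ cR n q.R x := fun x => c2_nonneg _
  have hc1 : ∀ x, cR n q.R x ≤ 1 := fun x => c2_le_one _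
  have he : 0 ≤ g q * (q.R ^ 2)⁻¹ := by have := h.g0; positivity
  refine EstF_of (w := wzF M q d) (G := G0 q.R) (e := g q * (q.R ^ 2)⁻¹) (d := 0)
    (K := κ₀ q) B.s₁ B.s₂ B.y₁ B.y₂ B.e₁ B.e₂ B.W (cws.div_const 2) hc2 hc0
    (m := mw (fun _ => κ₀ q) (fun _ => ζ₀ q / q.R) (ws zos (d.ch q) (M q d)))
    (mw_ct continuousOn_const continuousOn_const cws.continuousOn) ?_ he le_rfl h.κ0
    (fun _ => le_rfl) (fun _ => le_rfl) (fun _ => le_rfl) (fun _ => le_rfl) ?_ ?_ ?_ ?_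
  · intro a b ta tb
    have h := glue_wsG (σ := fx d.s₁) (τ := fy d.s₂) (θ := fun _ => 1)
      (v₁ := fun _ => 0) (v₂ := fun _ => 0) (W := d.W q) (a := a) (b := b)
      (fx_ok B.s₁ B.y₁ isOpen_univ) (fy_ok B.s₂ B.y₂ isOpen_univ)
      (f_cm B.s₁ B.s₂ isOpen_univ) contDiffOn_const contDiffOn_const
      (fun z _ k => D_const _ 0 k z) (fun z _ i => D_const _ 0 i z) B.W.contDiffOn zos
      (χ := d.ch q) (fun k _ => (B.ch k).contDiffOn) h1 (M := M q d) (co := co q d)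
      (κ₀ := fun _ => κ₀ q) (ζ₀ := fun _ => ζ₀ q / q.R) continuous_const continuous_const
      (fun k _ => (C k).1) (fun k _ => (C k).2) (fun k _ => h.zo k d ok)
      (fun z j _ hj => (h.nn d ok j z hj).1) (fun z j _ hj => (h.nn d ok j z hj).2.1)
      (fun z j _ hj => (h.nn d ok j z hj).2.2.1)
      (fun z j _ hj => (h.nn d ok j z hj).2.2.2)
      (fun z hz k _ j _ hj a b => ?_) ta tb
    · refine le_trans (le_of_eq ?_) h
      refine In_congr isOpen_univ fun z _ => ?_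
      exact mw_dens _ _ _
    · have := h.pay k j d ok z hz hj a b
      rw [card_zos]
      norm_num
      linarith
  · intro z
    have h2 := mul_le_mul_of_nonneg_left (hc1 z.1) he
    have h3 := h.g1
    show g q * (q.R ^ 2)⁻¹ * cR n q.R z.1 + 2 * 0 ≤ ζ₀ q / q.R
    linarith
  · intro z
    have h2 := mul_le_mul_of_nonneg_left (hc1 z.2) he
    have h3 := h.g1
    show g q * (q.R ^ 2)⁻¹ * cR n q.R z.2 + 2 * 0 ≤ ζ₀ q / q.R
    linarith
  · intro z
    have h2 := ws_ge (h1 z) fun k _ hk => (h.gn d ok k z hk).1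
    show wzF M q d z + G0 q.R + gy0 q d (κ₀ q) (g q) z ≤ ws zos (d.ch q) (M q d) z
    unfold wzF
    linarith
  · intro z
    have h2 := ws_ge (h1 z) fun k _ hk => (h.gn d ok k z hk).2
    show wzF M q d z + G0 q.R + gx0 q d (κ₀ q) (g q) z ≤ ws zos (d.ch q) (M q d) z
    unfold wzF
    linarith

/-- **Row Z from the rows of the zones**, the payments on the dense open set. -/
theorem rowZ_ofG {M co : Fam n} {κ₀ ζ₀ g : Cst → ℝ} (hB : RowBas n) (hC : RowCt M co)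
    (hZ : ∀ k, RowZo M co k) (hN : RowNn M κ₀ ζ₀) (hP : ∀ k j, RowPayG M co k j)
    (hG : RowGain M κ₀ g) (hg : EvC fun q => g q * (q.R ^ 2)⁻¹ ≤ ζ₀ q / q.R) :
    RowZ n (wzF M) g := by
  have hZ' : EvC fun q => ∀ k, ∀ d : Pk n, PkOk q d → d.Zone q (d.ch q k)
      ((M q d k).sm fun z => d.ch q k z ^ 2) (co q d k) :=
    evZo (P := fun k q => ∀ d : Pk n, PkOk q d → d.Zone q (d.ch q k)
      ((M q d k).sm fun z => d.ch q k z ^ 2) (co q d k)) hZ
  have hP' : EvC fun q => ∀ k j, ∀ d : Pk n, PkOk q d → ∀ z ∈ Gd zos (d.ch q),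
      d.ch q j z ≠ 0 → ∀ a b : VV n → ℝ,
        34 * den d q (co q d k) a b z ≤ den d q (M q d j) a b z :=
    evZo (P := fun k q => ∀ j, ∀ d : Pk n, PkOk q d → ∀ z ∈ Gd zos (d.ch q), d.ch q j z ≠ 0 →
      ∀ a b : VV n → ℝ, 34 * den d q (co q d k) a b z ≤ den d q (M q d j) a b z) fun k =>
      evZo (P := fun j q => ∀ d : Pk n, PkOk q d → ∀ z ∈ Gd zos (d.ch q), d.ch q j z ≠ 0 →
      ∀ a b : VV n → ℝ, 34 * den d q (co q d k) a b z ≤ den d q (M q d j) a b z) fun j => hP k j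
  have hA : EvC (TopOkW M co κ₀ ζ₀ g) := by
    refine EvC.mono (Q := TopOkW M co κ₀ ζ₀ g)
      (((((EvC.and hB hC).and (EvC.and hZ' hP')).and (EvC.and hN hG)).and hg).and EvC.pos) ?_
    rintro q ⟨⟨⟨⟨⟨b, c⟩, z, p⟩, ⟨k0, -, nn⟩, g0, gn⟩, g1⟩, h⟩
    exact { bas := b, ct := c, zo := z, κ0 := k0, nn := nn, pay := p, g0 := g0,
            gn := gn, g1 := g1, R1 := h.2.2.2.2.2.2.2 }
  exact EvC.mono (Q := fun q => 0 < g q ∧ ∀ d : Pk n, PkOk q d →
    EstF d.s₁ d.s₂ (d.W q) (wzF M q d) (g q * (q.R ^ 2)⁻¹) (G0 q.R) (cR n q.R)) hA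
    fun q h => ⟨h.g0, fun d ok => h.est ok⟩

/-- **Row Z from the rows of the zones**, the payments where both cut-offs are not zero. -/
theorem rowZ_ofW {M co : Fam n} {κ₀ ζ₀ g : Cst → ℝ} (hB : RowBas n) (hC : RowCt M co)
    (hZ : ∀ k, RowZo M co k) (hN : RowNn M κ₀ ζ₀) (hO : ∀ k, RowOff co k)
    (hP : ∀ k j, RowPayW M co k j)
    (hG : RowGain M κ₀ g) (hg : EvC fun q => g q * (q.R ^ 2)⁻¹ ≤ ζ₀ q / q.R) :
    RowZ n (wzF M) g :=
  rowZ_ofG hB hC hZ hN (fun k j => RowPayG.ofW hN (hO k) (hP k j)) hG hg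

end Vale.Agent.P088.R2.H558.G
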