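import Vale.Agent.P088.R2.H455.E.Lett
import Vale.Agent.P088.R2.H558.G.TopW

/-!
# P088, stage 3, EST': row Z for the letters of `Lett`, the payments on the dense open set

`PayEG`: the payment of a pair for all sufficiently small parameters `e`, at the points which are
in no boundary of a support. It follows from the literal payment `PayE` (the costs `T1`, `T2`,
whose cost field is larger than the support of the cut-off) or from `PayEW` (both cut-offs not
zero) and `OffE` (the costs vanish off the closed support of the cut-off).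
-/

open Set Filter MeasureTheory
open scoped ContDiff Topology Matrix

noncomputable section

namespace Vale.Agent.P088.R2.H558.G

open Vale.Agent.P088.LR Vale.Agent.P088.HY
open Vale.Agent.P088.R2.H31.EP
open Vale.Agent.P088.R2.H551.E
open Vale.Agent.P088.R2.H455.E
open Vale.Agent.P088.R2.H867.EP (Zo zos mem_zos)

variable {n : ℕ}

/-- The payment on the dense open set, for all sufficiently small `e`. -/
def PayEG (L : Lc n) (k j : Zo) : Prop := ∃ th : Cst → ℝ, SmE th ∧ ∀ e : Cst → ℝ, SmE e →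
  (∀ q, e q ≤ th q) → RowPayG (Mz L) (coz L e) k j

/-- The payment where both cut-offs are not zero, for all sufficiently small `e`. -/
def PayEW (L : Lc n) (k j : Zo) : Prop := ∃ th : Cst → ℝ, SmE th ∧ ∀ e : Cst → ℝ, SmE e →
  (∀ q, e q ≤ th q) → RowPayW (Mz L) (coz L e) k j

/-- The costs of the zone `k` vanish off the closed support of the cut-off, for all `e`. -/
def OffE (L : Lc n) (k : Zo) : Prop := ∀ e : Cst → ℝ, SmE e → RowOff (coz L e) k

theorem SmE.one : SmE fun _ => (1 : ℝ) := ⟨fun _ => rfl, fun _ => one_pos⟩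

theorem PayEG.of {L : Lc n} {k j : Zo} (h : PayE L k j) : PayEG L k j := by
  obtain ⟨th, ht, h⟩ := h
  exact ⟨th, ht, fun e he h1 => RowPayG.of (h e he h1)⟩

theorem PayEG.ofW {L : Lc n} {κ₀ ζ₀ : Cst → ℝ} {k j : Zo} (hN : RowNn (Mz L) κ₀ ζ₀)
    (hO : OffE L k) (h : PayEW L k j) : PayEG L k j := by
  obtain ⟨th, ht, h⟩ := h
  exact ⟨th, ht, fun e he h1 => RowPayG.ofW hN (hO e he) (h e he h1)⟩

/-- A payment which does not depend on the smallness of `e`. -/
theorem PayEW.all {L : Lc n} {k j : Zo} (h : ∀ e : Cst → ℝ, SmE e →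
    RowPayW (Mz L) (coz L e) k j) : PayEW L k j :=
  ⟨fun _ => 1, SmE.one, fun e he _ => h e he⟩

/-- A pair without common points. -/
theorem PayEW.dead {L : Lc n} {k j : Zo}
    (h : EvC fun q => ∀ d : Pk n, PkOk q d → ∀ z, d.ch q k z ≠ 0 → d.ch q j z ≠ 0 → False) :
    PayEW L k j :=
  PayEW.all fun _ _ => RowPayW.dead h

/-- **Row Z from the rows of the zones and the pairs.** -/
theorem rowZ_ofLG {L : Lc n} {κ₀ ζ₀ g : Cst → ℝ} (hB : RowBas n) (hC : CtE L)
    (hZ : ∀ k, ZoE L k) (hN : RowNn (Mz L) κ₀ ζ₀) (hP : ∀ k j, PayEG L k j)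
    (hG : RowGain (Mz L) κ₀ g) (hg : EvC fun q => g q * (q.R ^ 2)⁻¹ ≤ ζ₀ q / q.R) :
    RowZ n (wzF (Mz L)) g := by
  choose t1 h1 h2 using hZ
  choose t2 h3 h4 using hP
  obtain ⟨e1, he1, g1⟩ := smE_fin zos h1
  obtain ⟨e2, he2, g2⟩ := smE_fin (zos ×ˢ zos) fun p : Zo × Zo => h3 p.1 p.2
  have he := he1.min he2
  exact rowZ_ofG (co := coz L fun q => min (e1 q) (e2 q)) hB (hC _ he)
    (fun k => h2 k _ he fun q => (min_le_left _ _).trans (g1 k (mem_zos k) q)) hN
    (fun k j => h4 k j _ he fun q => (min_le_right _ _).trans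
      (g2 (k, j) (Finset.mem_product.2 ⟨mem_zos k, mem_zos j⟩) q)) hG hg

end Vale.Agent.P088.R2.H558.G
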