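import Vale.Agent.P088.R2.H558.G.TopL
import Vale.Agent.P088.R2.H850.E.RowWb
import Vale.Agent.P088.R2.H747.A.ZoE

/-!
# P088, stage 3, EST': the shape of the rows of the zones

`Lf`: the literal functions of the letters; `Lit F L`: the letters `L` use them. The rows `ZR0`,
`ZRI`, `ZR2`, `ZRB`, `ZRT`, `ZRA`, `ZRP`, `ZRF` of the zones give one `L` with `L.Ok`, `Lit F L` and all
the zone theorems (`exists_L`). The structure `Rest F` has all the other rows, for every such `L`.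
`rows`: rows `Wb` and `Z`.
-/

open Set Filter MeasureTheory
open scoped ContDiff Topology Matrix

noncomputable section

namespace Vale.Agent.P088.R2.H558.G

open Vale.Agent.P088.LR Vale.Agent.P088.HY
open Vale.Agent.P088.R2.H31.EP
open Vale.Agent.P088.R2.H551.E
open Vale.Agent.P088.R2.H455.E
open Vale.Agent.P088.R2.H867.EP (Zo zos mem_zos)
open Vale.Agent.P088.R2.H935.G (RowGL gAll gAll_NoM rowGain_of gAll_ζ)

variable {n : ℕ}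

/-- The literal functions of the letters (`kA` is a number; `ZB`, `ZB'` with a free constant). -/
structure Lf (n : ℕ) where
  kz : Cst → Pk n → VV n → ℝ
  ZB : ℝ → Cst → Pk n → VV n → ℝ
  ZB' : ℝ → Cst → Pk n → VV n → ℝ
  GP : Cst → Pk n → VV n → ℝ
  om : Zo → Cst → Pk n → VV n → ℝ
  FM : Zo → Cst → Pk n → Q8 (VV n)
  FC : Zo → Cst → Pk n → Q8 (VV n)
  kA : ℝ
  kA0 : 0 < kA
  kA1 : kA ≤ 1 / 2

/-- The letters `L` use the functions `F`. -/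
structure Lit (F : Lf n) (L : Lc n) : Prop where
  kz : L.kz = F.kz
  ZB : ∃ K : Cst → ℝ, (∀ q, 0 < K q) ∧ NB_ηc K ∧ (L.ZB = fun q d => F.ZB (K q) q d) ∧
    L.ZB' = fun q d => F.ZB' (K q) q d
  GP : L.GP = F.GP
  om : L.om = F.om
  FM : L.FM = F.FM
  FC : L.FC = F.FC
  kA : L.kA = fun _ => F.kA

/-! ## The rows of the zones -/

/-- Leaf `z0`. -/
def ZR0 (n : ℕ) : Prop := ∃ c0 C0 cs : Cst → ℝ, ((∀ q, 0 < c0 q) ∧ NB_c' c0) ∧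
  ((∀ q, 0 < C0 q) ∧ NB_c' C0) ∧ ((∀ q, 0 < cs q ∧ cs q ≤ 1) ∧ NB_c' cs) ∧
  ∀ L : Lc n, L.c0 = c0 → L.C0 = C0 → L.cs = cs → ZoE L .z0

/-- Leaf `zI`. -/
def ZRI (n : ℕ) : Prop := ∃ cI CI cN CN : Cst → ℝ, ((∀ q, 0 < cI q) ∧ NB_c₀ cI) ∧
  ((∀ q, 0 < CI q) ∧ NB_c₀ CI) ∧ ((∀ q, 0 < cN q) ∧ NB_c' cN) ∧
  ((∀ q, 0 < CN q) ∧ NB_c' CN) ∧
  ∀ L : Lc n, L.cI = cI → L.CI = CI → L.cN = cN → L.CN = CN → ZoE L .zI

/-- Leaves `z2a`, `z2b`. -/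
def ZR2 (F : Lf n) : Prop := ∃ C2 K2 : Cst → ℝ, ((∀ q, 0 < C2 q) ∧ NB_ηc C2) ∧
  ((∀ q, 0 < K2 q) ∧ NB_ηc K2) ∧
  ∀ L : Lc n, L.kz = F.kz → L.C2 = C2 → L.K2 = K2 → ZoE L .z2a ∧ ZoE L .z2b

/-- Leaf `zB`. -/
def ZRB (F : Lf n) : Prop := ∃ cB CB K : Cst → ℝ, ((∀ q, 0 < cB q) ∧ NB_ηc cB) ∧
  ((∀ q, 0 < CB q) ∧ NB_ηc CB) ∧ ((∀ q, 0 < K q) ∧ NB_ηc K) ∧
  ∀ L : Lc n, (L.ZB = fun q d => F.ZB (K q) q d) → (L.ZB' = fun q d => F.ZB' (K q) q d) →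
    L.cB = cB → L.CB = CB → ZoE L .zB

/-- Leaves `T1`, `T2`. -/
def ZRT (n : ℕ) : Prop := ∃ cT CT : Cst → ℝ, ((∀ q, 0 < cT q) ∧ NB_rT cT) ∧
  ((∀ q, 0 < CT q) ∧ NB_c' CT) ∧
  ∀ L : Lc n, L.cT = cT → L.CT = CT → ZoE L .T1 ∧ ZoE L .T2

/-- Leaves `A1`, `A2`, `Af`. -/
def ZRA (F : Lf n) : Prop := ∃ μA : Cst → ℝ, ((∀ q, 0 < μA q) ∧ NB_c' μA) ∧
  ∀ L : Lc n, L.μA = μA → (L.kA = fun _ => F.kA) → ZoE L .A1 ∧ ZoE L .A2 ∧ ZoE L .Af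

/-- Leaves `P1`, `P2`. -/
def ZRP (F : Lf n) : Prop := ∃ cP CP : Cst → ℝ, ((∀ q, 0 < cP q) ∧ NB_rT cP) ∧
  ((∀ q, 0 < CP q) ∧ NB_rT CP) ∧
  ∀ L : Lc n, L.GP = F.GP → L.om = F.om → L.cP = cP → L.CP = CP → ZoE L .P1 ∧ ZoE L .P2

/-- Leaf `k ∈ {iH, iF, iS, RSn, RSf}`. -/
def ZRF (F : Lf n) (k : Zo) : Prop := ∀ L : Lc n, L.FM = F.FM → L.FC = F.FC → ZoE L k

/-- All the zone rows. -/
structure ZR (F : Lf n) : Prop where
  z0 : ZR0 n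
  zI : ZRI n
  z2 : ZR2 F
  zB : ZRB F
  T : ZRT n
  A : ZRA F
  P : ZRP F
  iH : ZRF F .iH
  iF : ZRF F .iF
  iS : ZRF F .iS
  RSn : ZRF F .RSn
  RSf : ZRF F .RSf

/-- **One set of letters for all the zones.** -/
theorem exists_L {F : Lf n} (h : ZR F) : ∃ L : Lc n, L.Ok ∧ Lit F L ∧ ∀ k, ZoE L k := by
  obtain ⟨c0, C0, cs, a1, a2, a3, z0⟩ := h.z0
  obtain ⟨cI, CI, cN, CN, b1, b2, b3, b4, zI⟩ := h.zI
  obtain ⟨C2, K2, d1, d2, z2⟩ := h.z2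
  obtain ⟨cB, CB, K, e1, e2, e3, zB⟩ := h.zB
  obtain ⟨cT, CT, f1, f2, zT⟩ := h.T
  obtain ⟨μA, g1, zA⟩ := h.A
  obtain ⟨cP, CP, i1, i2, zP⟩ := h.P
  obtain ⟨L, hL⟩ : ∃ L : Lc n, L = {
    c0 := c0, C0 := C0, cs := cs, cI := cI, CI := CI, cN := cN, CN := CN, kz := F.kz,
    C2 := C2, K2 := K2, cB := cB, CB := CB, ZB := fun q d => F.ZB (K q) q d,
    ZB' := fun q d => F.ZB' (K q) q d, cT := cT, CT := CT,
    kA := fun _ => F.kA, μA := μA, cP := cP, CP := CP, GP := F.GP, om := F.om,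
    FM := F.FM, FC := F.FC } := ⟨_, rfl⟩
  refine ⟨L, ?_, ?_, ?_⟩
  · subst hL
    exact { c0 := a1, C0 := a2, cs := a3, cI := b1, CI := b2, cN := b3, CN := b4, C2 := d1,
            K2 := d2, cB := e1, CB := e2, cT := f1, CT := f2,
            kA := ⟨fun _ => ⟨F.kA0, F.kA1⟩, fun _ => rfl⟩, μA := g1, cP := i1, CP := i2 }
  · subst hL
    exact ⟨rfl, ⟨K, e3.1, e3.2, rfl, rfl⟩, rfl, rfl, rfl, rfl, rfl⟩
  · have h2 := z2 L (by rw [hL]) (by rw [hL]) (by rw [hL])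
    have hT := zT L (by rw [hL]) (by rw [hL])
    have hA := zA L (by rw [hL]) (by rw [hL])
    have hP := zP L (by rw [hL]) (by rw [hL]) (by rw [hL]) (by rw [hL])
    have hM : L.FM = F.FM := by rw [hL]
    have hC : L.FC = F.FC := by rw [hL]
    intro k
    cases k with
    | z0 => exact z0 L (by rw [hL]) (by rw [hL]) (by rw [hL])
    | zI => exact zI L (by rw [hL]) (by rw [hL]) (by rw [hL]) (by rw [hL])
    | z2a => exact h2.1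
    | z2b => exact h2.2
    | zB => exact zB L (by rw [hL]) (by rw [hL]) (by rw [hL]) (by rw [hL])
    | T1 => exact hT.1
    | T2 => exact hT.2
    | A1 => exact hA.1
    | A2 => exact hA.2.1
    | Af => exact hA.2.2
    | P1 => exact hP.1
    | P2 => exact hP.2
    | iH => exact h.iH L hM hC
    | iF => exact h.iF L hM hC
    | iS => exact h.iS L hM hC
    | RSn => exact h.RSn L hM hC
    | RSf => exact h.RSf L hM hC

/-- Zone A from helper747's rows. -/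
theorem ZRA.of {F : Lf n} (h : H747.A.ZoneA n) : ZRA F := by
  obtain ⟨μ₀, h1, h2, h3⟩ := H747.A.zoE_of h
  refine ⟨μ₀, ⟨h2, fun q => ?_⟩, fun L e1 e2 => ?_⟩
  · have k1 := h1 q
    have k2 := h1 q.b_c'
    rw [← k1, ← k2]
    rfl
  · have k := h3 L e1 ⟨F.kA, F.kA0, e2⟩
    exact ⟨k .A1 (by simp), k .A2 (by simp), k .Af (by simp)⟩

/-! ## The other rows -/

/-- The other rows, for all letters with `L.Ok` and `Lit F L`. -/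
structure Rest (F : Lf n) : Prop where
  /-- helper493 -/
  ct : ∀ L : Lc n, L.Ok → Lit F L → CtE L
  /-- helper997 -/
  nn : ∀ L : Lc n, L.Ok → Lit F L → ∃ κ₀ ζ₀ : Cst → ℝ, NoM κ₀ ∧ NoM ζ₀ ∧
    RowNn (Mz L) κ₀ ζ₀
  /-- helper844 -/
  pay : ∀ L : Lc n, L.Ok → Lit F L → ∀ k j, PayEG L k j
  /-- helper935, helper737 -/
  gl : ∀ L : Lc n, L.Ok → Lit F L → ∀ k, ∃ g : Cst → ℝ, NoM g ∧ RowGL (Mz L) k g
  /-- helper606, helper997 -/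
  k2 : ∀ L : Lc n, L.Ok → Lit F L → H850.E.RowK2 L
  f2 : H850.E.RowF2 n
  /-- helper281, helper912 -/
  sup : H747.A.RowSup n

/-- **The rows `Wb` and `Z`.** -/
theorem rows (hn : 0 < n) {F : Lf n} (hZ : ZR F) (h : Rest F) (hB : RowBas n) :
    ∃ (wz : Cst → Pk n → VV n → ℝ) (g : Cst → ℝ), NoM g ∧ RowWb n wz ∧ RowZ n wz g := by
  obtain ⟨L, hL, hF, z⟩ := exists_L hZ
  have hC := h.ct L hL hF
  obtain ⟨κ₀, ζ₀, k1, k2, hN⟩ := h.nn L hL hF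
  choose g hg hG using h.gl L hL hF
  have p1 : EvC fun q => 0 < κ₀ q := hN.mono fun q h => h.1
  have p2 : EvC fun q => 0 < ζ₀ q := hN.mono fun q h => h.2.1
  refine ⟨wzF (Mz L), gAll n κ₀ g, gAll_NoM k1 hg, ?_, ?_⟩
  · exact H850.E.rowWb_LG hn hL hC hg hG h.sup (h.k2 L hL hF) h.f2
  · exact rowZ_ofLG hB hC z hN (h.pay L hL hF) (rowGain_of p1 hg hG) (gAll_ζ k1 hg k2 p2)

end Vale.Agent.P088.R2.H558.G
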