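import Vale.Agent.P088.R2.H650.X.ZRc
import Vale.Agent.P088.R2.H437.Z0.Zone
import Vale.Agent.P088.R2.H820.T.ZRT
import Vale.Agent.P088.R2.H205.C.ZRI
import Vale.Agent.P088.R2.H870.Z2.Z2Row
import Vale.Agent.P088.R2.H516.P.Omr
import Vale.Agent.P088.R2.H867.Z.CbR
import Vale.Agent.P088.R2.H168.INF.H2p
import Vale.Agent.P088.R2.H404.INF.ZiH
import Vale.Agent.P088.R2.H835.INF.H1
import Vale.Agent.P088.R2.H808.INF.O1
import Vale.Agent.P088.R2.H313.INF.O2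
import Vale.Agent.P088.R2.H673.INF.RowO3

/-!
# P088, stage 3, EST': the rows of the zones for the literal functions
-/

open Set Filter MeasureTheory
open scoped ContDiff Topology Matrix

noncomputable section

namespace Vale.Agent.P088.R2.H558.G

open Vale.Agent.P088.LR Vale.Agent.P088.HY
open Vale.Agent.P088.R2.H31.EP
open Vale.Agent.P088.R2.H551.E
open Vale.Agent.P088.R2.H867.EP (Zo)
open Vale.Agent.P088.R2.H591.X (F0)

variable {n : ℕ}

theorem zrz0 (hn : 1 ≤ n) : ZR0 n := by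
  obtain ⟨c0, C0, cs, a1, a2, a3, a4, a5, a6, h⟩ := H437.Z0.zoZ0 hn
  exact ⟨c0, C0, fun _ => cs, ⟨a1, fun q => (a2 q.b_c').symm.trans (a2 q)⟩,
    ⟨a3, fun q => (a4 q.b_c').symm.trans (a4 q)⟩, ⟨fun _ => ⟨a5, a6⟩, fun _ => rfl⟩,
    fun L e1 e2 e3 => h L (fun q => by rw [e1]) (fun q => by rw [e2]) fun q => by rw [e3]⟩

theorem zriH (hn : 1 ≤ n) (ss : H168.INF.RowSS n) : ZRF (F0 n) .iH :=
  H591.X.ZRF.of (by simp) (H404.ZI.zone_iH hn (H835.INF.rowH1 hn)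
    (H168.INF.rowH2 hn (H808.INF.rowO1 hn) (H313.INF.rowO2 hn) (H673.O3.rowO3 n) ss))

/-- **The zone rows from the open ones.** -/
theorem zr_of (hn : 3 ≤ n) (zP : ZRP (F0 n)) (ss : H168.INF.RowSS n) : ZR (F0 n) :=
  H650.X.zr_F0 hn (zrz0 (by omega)) (H205.CP.zRI hn) (H870.Z2.zr2 (by omega) rfl)
    (H516.P.zrB (by omega) rfl rfl (H516.P.rowOm n) (H867.CbT.rowCB_all hn))
    (H820.T.zRT hn) zP (zriH (by omega) ss)

end Vale.Agent.P088.R2.H558.G
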