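import Vale.Agent.P088.R2.H558.G.Last
import Vale.Agent.P088.R2.H558.G.Asm
import Vale.Agent.P088.R2.H561.P.Zn
import Vale.Agent.P088.R2.H167.P.Fin
import Vale.Agent.P088.R2.H406.INF.SS
import Vale.Agent.P088.R2.H997.EP.RestF
import Vale.Agent.P088.R2.H844.E.PayFin
import Vale.Agent.P088.R2.H349.G.GH

/-!
# P088: the two-slot estimate `RowESTh`
-/

namespace Vale.Agent.P088.R2.H558.G

/-- **The two-slot estimate.** -/
theorem rowESTh : Vale.Agent.P088.S4.RowESTh :=
  rowESTh_of fun n hn => ⟨H591.X.F0 n,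
    zr_of hn (H561.P.zrp_of hn (H167.P.pW (by omega))) (H406.INF.rowSS (by omega)),
    H997.EP.rest0 (by omega) ⟨H844.E.rest_pay hn, H349.G.rowGH (by omega)⟩⟩

end Vale.Agent.P088.R2.H558.G
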