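import Vale.Agent.P088.R2.H558.G.Shape
import Vale.Agent.P088.R2.H455.E.Close
import Vale.Agent.P088.R2.H871.RD.Row
import Vale.Agent.P088.R2.H794.EP.Ex
import Vale.Agent.P088.R2.H281.EP.RowWa
import Vale.Agent.P088.R2.H281.EP.Bas

/-!
# P088, stage 3, EST': the last step, `RowESTh` from the rows of the zones
-/

open Set Filter MeasureTheory
open scoped ContDiff Topology Matrix

noncomputable section

namespace Vale.Agent.P088.R2.H558.G

open Vale.Agent.P088.LR Vale.Agent.P088.HY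
open Vale.Agent.P088.R2.H31.EP
open Vale.Agent.P088.R2.H455.E

/-- **`RowESTh` from the zone rows and the other rows.** -/
theorem rowESTh_of (h : ∀ n : ℕ, 3 ≤ n → ∃ F : Lf n, ZR F ∧ Rest F) :
    Vale.Agent.P088.S4.RowESTh := by
  have h1 : ∀ n : ℕ, ∃ (wz : Cst → Pk n → VV n → ℝ) (g : Cst → ℝ), NoM g ∧
      (3 ≤ n → RowWb n wz ∧ RowZ n wz g) := by
    intro n
    by_cases hn : 3 ≤ n
    · obtain ⟨F, hZ, hF⟩ := h n hn
      obtain ⟨wz, g, h1, h2, h3⟩ := rows (by omega) hZ hF (H281.EP.rowBas n)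
      exact ⟨wz, g, h1, fun _ => ⟨h2, h3⟩⟩
    · exact ⟨fun _ _ _ => 0, fun _ => 0, fun _ _ _ _ _ _ => rfl, fun h => absurd h hn⟩
  choose wz g hg hh using h1
  exact rowESTh H871.RD.rowRD (wz := wz) (g := g) hg (fun n hn => H794.EP.pkEx (by omega))
    (fun n hn => H281.EP.rowWa (by omega)) (fun n hn => (hh n hn).1) (fun n hn => (hh n hn).2)

end Vale.Agent.P088.R2.H558.G
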